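import Vale.Agent.P158.GFin
import Vale.Agent.P158.ModH
import Vale.Agent.P158.Red

open scoped NNReal
open MeasureTheory

/-- For every atomless law of the edge weights, planar first-passage percolation has almost
surely no bigeodesic. -/
theorem Vale.Agent.Results.P158.NoBigeodesic.result (G : Measure ℝ≥0) [IsProbabilityMeasure G]
    (hG : ∀ t : ℝ≥0, G {t} = 0) :
    ∀ᵐ ω ∂(Measure.infinitePi fun _ : P158.E => G),
      ¬ ∃ v : ℤ → P158.V, P158.IsBigeodesic ω v := by
  haveI : NullSingletonClass G := ⟨hG⟩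
  obtain ⟨M, h0⟩ := P158.exists_law0 G
  obtain ⟨m, hm⟩ := P158.modelH h0
  have h1 := P158.Gen.no_bigeodesic (G := ⟨_, G, M, m, hm⟩) ⟨hm.prob⟩
  have h2 := ae_of_ae_map (P158.measurable_trunc M).aemeasurable h1
  filter_upwards [h2, P158.ae_finite_Cl h0] with ω a b
  rintro ⟨v, hv⟩
  exact a ⟨v, P158.red b hv⟩
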